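import Vale.Agent.P307.R2.H480.LeRow
import Vale.Agent.P307.R2.H302.JFp
import Vale.Agent.P307.R2.H301.Din.RowsX

/-!
The hypothesis on the coherent isomorphisms for the three rows.
-/

set_option linter.unusedSectionVars false

universe u v

open FirstOrder Cardinal Set

namespace Vale.Agent.P307.R2.H480

open Vale.Agent.P307 Vale.Agent.P307.H304 Vale.Agent.P307.R2.H287 Vale.Agent.P307.R2.H1
  Vale.Agent.P307.R2.H971 Vale.Agent.P307.R2.H541 Vale.Agent.P307.R2.H541.PG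
  Vale.Agent.P307.R2.H533 Vale.Agent.P307.R2.H319 Vale.Agent.P307.R2.H301
  Vale.Agent.P307.R2.H650 Vale.Agent.P307.R2.H804 Vale.Agent.P307.R2.H718
  Vale.Agent.P307.R2.H806 Language.Structure Language.Substructure

open scoped Classical

variable {L : Language.{u, u}} {K : AEC L} {ℓ : Cardinal.{u}}
  {κf α : Cardinal.{u} → Cardinal.{u}}

/-- Prime chains. -/
theorem evM_fpΘ_pj (hF : Frame K ℓ κf α) (h : EvM K ℓ κf α fun _ M => Pt1 M) :
    EvM K ℓ κf α fun _ M => FpΘ (PJ M) M := by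
  obtain ⟨r, h⟩ := (evM_chn.and (evM_free hF)).and h
  refine ⟨r, fun θ hθ h₀ hK hunb hst C _ hCm hs hCc => ?_⟩
  obtain ⟨⟨h1, h2⟩, h3⟩ := h θ hθ h₀ hK hunb hst C hCm hs hCc
  refine ⟨ℓ, h₀.pt.lt, fun D _ N hN _ hΘ => ?_⟩
  exact (H302.bdF_pj (pg_calc h₀ hK hunb hst hCm hs hCc) (pg_big h₀ hK hunb hst hCm hs hCc)
    h1 h2 h3 hN hΘ).level hK.1

/-- **The row of the pairs which are generated by finitely many points.** -/
theorem evL_lh_fin : EvL K ℓ κf α fun _ M τ => LhΘ (fun P A =>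
    ∃ p : Set _, p.Finite ∧ M.Atomic A (p ∪ P)) M τ :=
  evL_leHyp (Θ := fun _ M P A => ∃ p : Set _, p.Finite ∧ M.Atomic A (p ∪ P)) evM_fpΘ_fin

/-- **The row of the prime chains.** -/
theorem evL_lh_pj (hF : Frame K ℓ κf α) (h : EvM K ℓ κf α fun _ M => Pt1 M) :
    EvL K ℓ κf α fun _ M τ => LhΘ (PJ M) M τ :=
  evL_leHyp (Θ := fun _ M => PJ M) (evM_fpΘ_pj hF h)

/-- **The row of all the boundaries.** -/
theorem evL_lh (h : EvM K ℓ κf α fun _ M => H27.FP M) :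
    EvL K ℓ κf α fun _ M τ => LhΘ (fun _ _ => True) M τ :=
  evL_leHyp (Θ := fun _ _ _ _ => True) (evM_fpΘ_of_fp h)

end Vale.Agent.P307.R2.H480
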