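import Vale.Agent.P307.R2.H541.Free

/-!
Independence from a strong submodel at one sufficiently large level is independence at all levels.
-/

set_option linter.unusedSectionVars false

universe u

open FirstOrder Cardinal Set

namespace Vale.Agent.P307.R2.H480

open Vale.Agent.P307 Vale.Agent.P307.H304 Vale.Agent.P307.R2.H287 Vale.Agent.P307.R2.H1
  Vale.Agent.P307.R2.H971 Vale.Agent.P307.R2.H804 Vale.Agent.P307.R2.H541
  Language.Structure Language.Substructure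

variable {L : Language.{u, u}} {K : AEC L} {ℓ θ : Cardinal.{u}}
  {κf α : Cardinal.{u} → Cardinal.{u}} {C : Type u} [L.Structure C]

section

variable (h₀ : BasePt K ℓ κf α θ) (hK : K.IsLS ℓ)
  (hunb : ∀ ν, ν < κf ν ∧ K.CategoricalIn (κf ν)) (hst : Stab K ℓ α (H287.thr κf))
  (hCm : K.mem C) (hs : Sat K θ C) (hCc : #C = Order.succ θ)

include h₀ hK hunb hst hCm hs hCc

/-- Independence at one level gives independence. -/
theorem pg_ind_of_lvl {D N : L.Substructure C} (hD : K.le D) (hDc : #D = θ) (hN : K.le N)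
    (hNc : #N = θ) (hDN : (D : Set C) ⊆ N) {E : Set C} {ν μ ρ : Cardinal.{u}}
    (hl : Lvl ℓ κf α ν μ ρ θ) (h1 : #E ≤ ν)
    (hr1 : H804.Ind L κf μ (D : Set C) (N : Set C) (fun e : E => (e : C))) :
    (pg h₀ hK hunb hst hCm hs hCc).Ind (D : Set C) (N : Set C) E := by
  have hθ := H541.aleph0_le_pt h₀ hK
  have hE : #E < θ := h1.trans_lt (hl.νμ.trans_lt (hl.μΛ hunb))
  have hμ0 : ℵ₀ ≤ μ := hl.hμ hK
  have hEμ : #E ≤ μ := h1.trans hl.νμ
  intro A hA hAc F hF hFc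
  change #A < θ at hAc
  have hA' : A ⊆ N := fun x hx => (hA hx).elim (fun h => hDN h) id
  -- a higher level
  have hop : opB κf μ < θ := (Order.lt_succ _).trans_le (hl.opB.trans hl.lt.le)
  obtain ⟨ν', μ', ρ', h3, h4, hl'⟩ := exists_lvl h₀ (σ := #A + #E + opB κf μ)
    (add_lt_of_lt hθ (add_lt_of_lt hθ hAc hE) hop)
  have hopν : opB κf μ ≤ ν' := (self_le_add_left _ _).trans h3
  have hμν : μ ≤ ν' := (le_opB hunb μ).trans hopν
  have hAν : #A ≤ ν' := ((self_le_add_right _ _).trans (self_le_add_right _ _)).trans h3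
  have hEν : #E ≤ ν' := ((self_le_add_left _ _).trans (self_le_add_right _ _)).trans h3
  have hμμ : μ ≤ μ' := hμν.trans hl'.νμ
  have hR' := refl_big h₀ hK hunb hl' D hD hDc
  obtain ⟨r', hr1', hr2'⟩ := H804.exists_free h₀ hK hunb hl' hs N hN hNc (hEν.trans hl'.νμ)
    (fun e : E => (e : C)) hDN hR'
  obtain ⟨a', ha', hc'⟩ := hr1'
  obtain ⟨a, ha, hc⟩ := hr1
  obtain ⟨k, hk1, hk2⟩ := H804.exists_aut h₀ hK hunb hl hCm hs hCc N hN hNc h1
    (fun e : E => (e : C)) r' (by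
    intro ζ y hζ hy
    refine Conv.uniq (ρ := ρ') hμ0 (hμμ.trans (hl'.μρ hunb)) hEμ ?_ ?_ hR' ha ha' hc
      (hc'.level hμ0 hμμ hEμ) ?_ hζ y fun z => Or.inr (hy z)
    · rw [mk_succTy]
      refine Order.succ_le_of_lt ?_
      refine lt_of_le_of_lt ((hopν.trans hl'.νμ).trans (le_opB hunb μ')) ?_
      exact (Order.lt_succ _).trans_le hl'.opB
    · rw [mk_succTy]
      exact hl'.opB
    · intro ξ z hξ hz
      refine EqS.symm ?_
      exact (hr2' ξ z (hξ.trans hμμ) hz).mono hμ0 hμμ (mk_sum_le' hμ0 hξ hEμ))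
  obtain ⟨x, hx⟩ := hc' A (fun b => b) (hAν.trans hl'.νμ) (fun b => Or.inr (hA' b.2))
  have h5 := hx x le_rfl
  have hν0 : ℵ₀ ≤ ν' := hK.1.trans hl'.hℓ
  have hνα : ν' ≤ α ν' := (hst ν' hl'.hℓ).1
  have h6 := EqS.mono (hν0.trans hνα) h4 h5
    (mk_sum_le' (hν0.trans hνα) (hAν.trans hνα) (hEν.trans hνα))
  obtain ⟨l, hl1, hl2⟩ := exists_mem_autG h₀ hK hunb hst hCm hs hCc hl'.hℓ
    (hl'.νμ.trans_lt (hl'.μΛ hunb)) (mk_sum_le' hν0 hAν hEν) _ _ h6.symm
  refine ⟨l * k.toEquiv, mul_mem hl1 (mem_autG k), fun b hb => ?_, fun b hb => ?_⟩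
  · change l (k b) = b
    rw [hk1 b (hA' hb)]
    exact hl2 (Sum.inl ⟨b, hb⟩)
  · change l (k b) ∈ (D : Set C)
    rw [hk2 ⟨b, hF hb⟩]
    have h7 : l (r' ⟨b, hF hb⟩) = a' x ⟨b, hF hb⟩ := hl2 (Sum.inr ⟨b, hF hb⟩)
    rw [h7]
    exact ha' x _

/-- **Independence is decided by pieces of bounded size**: for every `σ` there is `B` such that a
set of size `σ` which moves into `D` over all pieces of `N` of size `B` is independent from `N`. -/
theorem pg_ind_of_bdd {σ : Cardinal.{u}} (hσ : σ < θ) : ∃ B : Cardinal.{u}, σ ≤ B ∧ B < θ ∧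
    ∀ {D N : L.Substructure C}, K.le D → #D = θ → K.le N → #N = θ → (D : Set C) ⊆ N →
    ∀ {E : Set C}, #E ≤ σ → (∀ A ⊆ (N : Set C), #A ≤ B → ∃ g ∈ autG L C, (∀ a ∈ A, g a = a) ∧
      ∀ e ∈ E, g e ∈ (D : Set C)) →
    (pg h₀ hK hunb hst hCm hs hCc).Ind (D : Set C) (N : Set C) E := by
  obtain ⟨ν, μ, ρ, h1, -, hl⟩ := exists_lvl h₀ hσ
  refine ⟨ρ, (h1.trans hl.νμ).trans (hl.μρ hunb), hl.lt, ?_⟩
  intro D N hD hDc hN hNc hDN E hE h
  have hμ0 := hl.hμ hK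
  have hEν : #E ≤ ν := hE.trans h1
  have hEμ : #E ≤ μ := hEν.trans hl.νμ
  refine pg_ind_of_lvl h₀ hK hunb hst hCm hs hCc hD hDc hN hNc hDN hl hEν ?_
  refine ind_of_coh h₀ hK hunb hl N hN hNc hEμ _ (union_subset hDN Subset.rfl) ?_
  intro η y hη hy
  obtain ⟨g, ⟨e, he⟩, h2, h3⟩ := h (range y) (by
    rintro _ ⟨z, rfl⟩
    rcases hy z with h | h
    · exact hDN h
    · exact h) (mk_range_le.trans (hη.trans hl.limB))
  refine ⟨fun i => e i, fun i => ?_, fun ξ f hξ => ?_⟩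
  · change e i ∈ (D : Set C)
    rw [he]
    exact h3 _ i.2
  · have h4 := H804.EqS.equiv hμ0 (mk_sum_le' hμ0 hξ hEμ) e
      (Sum.elim (fun k => y (f k)) fun x : E => (x : C))
    refine EqS.symm (h4.subset ?_)
    rintro _ ⟨k | i, rfl⟩
    · refine ⟨Sum.inl k, Prod.ext rfl ?_⟩
      change e (y (f k)) = y (f k)
      rw [he]
      exact h2 _ ⟨_, rfl⟩
    · exact ⟨Sum.inr i, rfl⟩

end

end Vale.Agent.P307.R2.H480
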