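import Vale.Agent.P307.R2.H319.Hrefl
import Vale.Agent.P307.R2.H533.LeIm
import Vale.Agent.P307.R2.H581.LeBdd
import Vale.Agent.P307.R2.H480.Up

/-!
Coherent isomorphisms from an enlargement of the faces of the extension of a system in one
direction onto a family which reflects at one level are locally elementary on the faces, if the
independence of one pair is decided by the pieces of a bounded size.
-/

set_option linter.unusedSectionVars false

universe u v

open FirstOrder Set Cardinal Function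

namespace Vale.Agent.P307.R2.H480

open Vale.Agent.P307.R2.H541 Vale.Agent.P307.R2.H541.PG Vale.Agent.P307.R2.H533
  Vale.Agent.P307.R2.H83 Vale.Agent.P307.R2.H319

open scoped Classical

section abs

variable {ι : Type v} {C : Type u} {M : PG C}

variable (M) in
/-- A model over `P` is independent from `N` over `P` if it is independent from the pieces of size
`σ` of `N`. -/
def FPat (σ : Cardinal.{u}) (P N : Set C) : Prop :=
  ∀ Q ∈ M.S, P ⊆ Q → (∀ y ⊆ N, #y ≤ σ → M.Ind P y Q) → M.Ind P N Q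

variable (M) in
/-- A model over `P` is independent from `N` over `P` if the pieces of size `σ` are. -/
def Full (σ : Cardinal.{u}) (P N : Set C) : Prop :=
  ∀ Q ∈ M.S, P ⊆ Q → M.IndL σ P Q N → M.Ind P N Q

variable {A P T : Finset ι → Set C} {φ : Finset ι → Equiv.Perm C} {S : Finset ι} {c : ι}
  {σ σ₁ τ : Cardinal.{u}}

theorem FPat.level {D N : Set C} (h : FPat M σ D N) (hσ : σ ≤ τ) : FPat M τ D N :=
  fun Q hQ hDQ h1 => h Q hQ hDQ fun y hy hyc => h1 y hy (hyc.trans hσ)

theorem Full.level {D N : Set C} (h : Full M σ D N) (hσ : σ ≤ τ) : Full M τ D N :=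
  fun Q hQ hDQ h1 => h Q hQ hDQ (h1.level hσ)

theorem fpat_of_fpr (h : H581.FPr M σ) {D N : Set C} (hD : D ∈ M.S) (hN : N ∈ M.S)
    (hDN : D ⊆ N) : FPat M σ D N :=
  fun Q hQ hDQ h1 => h D hD N hN Q hQ hDN hDQ h1

/-- Models which are atomic over a model and a small set. -/
theorem fpat_of_atomic {D N p : Set C} (hN : M.Atomic N (p ∪ D)) (hp : #p ≤ σ) :
    FPat M σ D N :=
  fun _ _ _ h1 => hN.dom (h1 p (subset_union_left.trans hN.sub) hp)

/-- Only the pieces of a bounded size of both sides. -/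
theorem exists_full (hM : M.Calc) (hU : H581.UpM M) (hσ : σ < M.χ) : ∃ τ < M.χ,
    ∀ D ∈ M.S, ∀ N : Set C, FPat M σ D N → Full M τ D N := by
  obtain ⟨τ, hτ, h⟩ := hU σ hσ
  refine ⟨τ, hτ, fun D hD N hF Q hQ hDQ hI => hF Q hQ hDQ fun y hy hyc => ?_⟩
  exact hM.sym hD (h D hD Q hQ hDQ y hyc (hI.mono Subset.rfl hy))

/-- The pair in a family which reflects at one level. -/
theorem indL_pair (hc : c ∉ S) (hS : S.Nonempty) (hT : IFam M T (insert c S).ssubsets)
    (hR : H83.IRefL M σ₁ T (insert c S).ssubsets) (hσ : σ + σ ≤ σ₁) :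
    M.IndL σ (T ∅) (T S) (T {c}) := by
  have h0 : (∅ : Finset ι) ∈ (insert c S).ssubsets :=
    Finset.mem_ssubsets.2 (Finset.empty_ssubset.2 (Finset.insert_nonempty c S))
  have h1 : S ∈ (insert c S).ssubsets := Finset.mem_ssubsets.2 (Finset.ssubset_insert hc)
  have h2 : ({c} : Finset ι) ∈ (insert c S).ssubsets :=
    Finset.mem_ssubsets.2 (insert_ssubset_insert' hc (Finset.empty_ssubset.2 hS))
  intro D hD hDc E hE hEc
  have hDS : D ⊆ T S := fun x hx => (hD hx).elim
    (fun h => hT.mono S h1 ∅ (Finset.empty_subset S) h) id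
  obtain ⟨g, hg, h3⟩ := hR c (D ∪ E) (union_subset (fun x hx => ⟨S, h1, hDS hx⟩)
    fun x hx => ⟨{c}, h2, hE hx⟩) (((mk_union_le _ _).trans (add_le_add hDc hEc)).trans hσ)
  refine ⟨g, hg, fun a ha => (h3 S h1 a (Or.inl ha) (hDS ha)).2 hc, fun b hb => ?_⟩
  have h4 := (h3 {c} h2 b (Or.inr hb) (hE hb)).1
  rwa [Finset.erase_singleton] at h4

/-- **The pair is independent.** -/
theorem ind_umap (hE : Ext1 M A S c) (hS : S.Nonempty) (hF : Full M σ (A ∅) (A {c}))
    (hσ : σ + σ ≤ σ₁) (hP : IFam M P (insert c S).ssubsets)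
    (hPR : IRef M P (insert c S).ssubsets) (hT : IFam M T (insert c S).ssubsets)
    (hR : H83.IRefL M σ₁ T (insert c S).ssubsets) (hφ : Coh M (insert c S).ssubsets P T φ)
    (hAP : ∀ v ∈ (insert c S).ssubsets, A v ⊆ P v) (h0 : P ∅ = A ∅) :
    M.Ind (umap (insert c S).ssubsets P φ '' A ∅) (umap (insert c S).ssubsets P φ '' A {c})
      (umap (insert c S).ssubsets P φ '' A S) := by
  have hm0 : (∅ : Finset ι) ∈ (insert c S).ssubsets :=
    Finset.mem_ssubsets.2 (Finset.empty_ssubset.2 (Finset.insert_nonempty c S))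
  have hm1 : S ∈ (insert c S).ssubsets := Finset.mem_ssubsets.2 (Finset.ssubset_insert hE.notMem)
  have hm2 : ({c} : Finset ι) ∈ (insert c S).ssubsets :=
    Finset.mem_ssubsets.2 (insert_ssubset_insert' hE.notMem (Finset.empty_ssubset.2 hS))
  obtain ⟨f, hf⟩ : ∃ f, f = umap (insert c S).ssubsets P φ := ⟨_, rfl⟩
  rw [← hf]
  have hfv : ∀ v ∈ (insert c S).ssubsets, ∀ a ∈ A v, φ v a = f a := fun v hv a ha => by
    rw [hf]
    exact hφ.umap_eq hP hPR hv (hAP v hv ha)
  have himg : ∀ v ∈ (insert c S).ssubsets, ∀ Z ⊆ A v, φ v '' Z = f '' Z := fun v hv Z hZ =>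
    image_congr fun a ha => hfv v hv a (hZ ha)
  have hA0 : A ∅ ⊆ A S := hE.sys.mono (Finset.Subset.refl S) (Finset.empty_subset S)
  have hgG := hφ.mem {c} hm2
  have hkG := hφ.mem S hm1
  have hT0 : φ {c} '' A ∅ = T ∅ := by
    rw [himg {c} hm2 _ hE.base, ← himg ∅ hm0 _ Subset.rfl, ← h0]
    exact hφ.img ∅ hm0
  have hL : M.IndL σ (φ {c} '' A ∅) (φ S '' A S) (φ {c} '' A {c}) := by
    rw [hT0]
    refine (indL_pair hE.notMem hS hT hR hσ).mono ?_ ?_
    · rw [← hφ.img S hm1]
      exact image_mono (hAP S hm1)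
    · rw [← hφ.img {c} hm2]
      exact image_mono (hAP {c} hm2)
  have hinv : ∀ Z : Set C, ((φ {c})⁻¹ : Equiv.Perm C) '' (φ {c} '' Z) = Z := fun Z => by
    rw [← image_comp]
    have h1 : ((φ {c})⁻¹ : Equiv.Perm C) ∘ φ {c} = id := by
      funext a
      exact inv_ap (φ {c}) a
    rw [h1, image_id]
  have hinv' : ∀ Z : Set C, φ {c} '' (((φ {c})⁻¹ : Equiv.Perm C) '' Z) = Z := fun Z => by
    rw [← image_comp]
    have h1 : φ {c} ∘ ((φ {c})⁻¹ : Equiv.Perm C) = id := by
      funext a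
      exact ap_inv (φ {c}) a
    rw [h1, image_id]
  have hL' := hL.smul (M.G.inv_mem hgG)
  rw [hinv, hinv] at hL'
  have hI := hF (((φ {c})⁻¹ : Equiv.Perm C) '' (φ S '' A S))
    (M.S_inv (M.G.inv_mem hgG) (M.S_inv hkG (hE.sys.mem (Finset.Subset.refl S)))) (by
      intro a ha
      refine ⟨φ S a, mem_image_of_mem _ (hA0 ha), ?_⟩
      rw [hfv S hm1 a (hA0 ha), ← hfv {c} hm2 a (hE.base ha), inv_ap]) hL'
  have hI' := hI.smul hgG
  rw [hinv', himg {c} hm2 _ hE.base, himg {c} hm2 _ Subset.rfl, himg S hm1 _ Subset.rfl] at hI'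
  exact hI'

/-- **Coherent isomorphisms onto a family which reflects at one level are locally elementary on the
faces of the extension of a system in one direction**, if the independence from one face is decided
by the pieces of a bounded size. -/
theorem leHyp_of_full (hM : M.Calc) (hE : Ext1 M A S c) (hS : S.Nonempty)
    (hF : Full M σ (A ∅) (A {c})) (hσ : σ + σ ≤ σ₁) : LeHyp M σ₁ A (insert c S).ssubsets := by
  intro P T φ hP hPR hT hR hφ hAP h0
  have h1 := ind_umap hE hS hF hσ hP hPR hT hR hφ hAP h0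
  have h2 := hE.le_image hM hS _ (fun t ht => ⟨φ t, hφ.mem t (Finset.mem_ssubsets.2 ht),
    fun a ha => hφ.umap_eq hP hPR (Finset.mem_ssubsets.2 ht)
      (hAP t (Finset.mem_ssubsets.2 ht) ha)⟩) h1
  rwa [iun_ssubsets]

/-- The form with the pieces of one side, uniformly. -/
theorem exists_leHyp (hM : M.Calc) (hU : H581.UpM M) (hσ : σ < M.χ) : ∃ σ₁ < M.χ,
    ∀ {ι : Type v} (A : Finset ι → Set C) (S : Finset ι) (c : ι), S.Nonempty → Ext1 M A S c →
      FPat M σ (A ∅) (A {c}) → LeHyp M σ₁ A (insert c S).ssubsets := by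
  obtain ⟨τ, hτ, h⟩ := exists_full hM hU hσ
  refine ⟨τ + τ, add_lt_of_lt M.hχ hτ hτ, fun A S c hS hE hF => ?_⟩
  exact leHyp_of_full hM hE hS (h _ (hE.sys.mem (Finset.empty_subset S)) _ hF) le_rfl

end abs

end Vale.Agent.P307.R2.H480
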