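import Vale.Agent.P307.R2.H480.LeExt
import Vale.Agent.P307.R2.H301.Din.Base

/-!
The hypothesis on the coherent isomorphisms at the base points.
-/

set_option linter.unusedSectionVars false

universe u v

open FirstOrder Cardinal Set

namespace Vale.Agent.P307.R2.H480

open Vale.Agent.P307 Vale.Agent.P307.H304 Vale.Agent.P307.R2.H287 Vale.Agent.P307.R2.H1
  Vale.Agent.P307.R2.H971 Vale.Agent.P307.R2.H541 Vale.Agent.P307.R2.H541.PG
  Vale.Agent.P307.R2.H533 Vale.Agent.P307.R2.H319 Vale.Agent.P307.R2.H301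
  Vale.Agent.P307.R2.H650 Vale.Agent.P307.R2.H804 Language.Structure Language.Substructure

open scoped Classical

variable {L : Language.{u, u}} {K : AEC L} {ℓ θ : Cardinal.{u}}
  {κf α : Cardinal.{u} → Cardinal.{u}} {C : Type u} [L.Structure C]

section

variable (h₀ : BasePt K ℓ κf α θ) (hK : K.IsLS ℓ)
  (hunb : ∀ ν, ν < κf ν ∧ K.CategoricalIn (κf ν)) (hst : Stab K ℓ α (H287.thr κf))
  (hCm : K.mem C) (hs : Sat K θ C) (hCc : #C = Order.succ θ)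

include h₀ hK hunb hst hCm hs hCc

/-- Independence from models is decided by the pieces of a bounded size. -/
theorem pg_upM : H581.UpM (pg h₀ hK hunb hst hCm hs hCc) := by
  intro σ hσ
  obtain ⟨B, h1, h2, h3⟩ := pg_ind_of_bdd h₀ hK hunb hst hCm hs hCc hσ
  refine ⟨B, h2, ?_⟩
  rintro P ⟨D, hD, hDc, rfl⟩ N ⟨N', hN, hNc, rfl⟩ hPN E hE hI
  exact h3 hD hDc hN hNc hPN hE fun A hA hAc =>
    hI A (hA.trans subset_union_right) hAc E Subset.rfl (hE.trans h1)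

/-- The hypothesis on the coherent isomorphisms, uniformly. -/
theorem pg_exists_leHyp {σ : Cardinal.{u}} (hσ : σ < θ) : ∃ σ₁ < θ,
    ∀ {ι : Type v} (A : Finset ι → Set C) (S : Finset ι) (c : ι), S.Nonempty →
      Ext1 (pg h₀ hK hunb hst hCm hs hCc) A S c →
      FPat (pg h₀ hK hunb hst hCm hs hCc) σ (A ∅) (A {c}) →
        LeHyp (pg h₀ hK hunb hst hCm hs hCc) σ₁ A (insert c S).ssubsets :=
  exists_leHyp (pg_calc h₀ hK hunb hst hCm hs hCc) (pg_upM h₀ hK hunb hst hCm hs hCc) hσ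

end

section rows

/-- Bounded independence is enough, for the pairs in `Θ`. -/
def FpΘ (Θ : Set C → Set C → Prop) (M : PG C) : Prop :=
  ∃ σ < M.χ, ∀ D ∈ M.S, ∀ N ∈ M.S, D ⊆ N → Θ D N → FPat M σ D N

/-- The hypothesis on the coherent isomorphisms, for the extensions with a first pair in `Θ`. -/
def LhΘ (Θ : Set C → Set C → Prop) (M : PG C) (τ : Cardinal.{u}) : Prop :=
  ∃ σ₁ < τ, ∀ (ι : Type u) (A : Finset ι → Set C) (S : Finset ι) (c : ι), S.Nonempty →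
    Ext1 M A S c → Θ (A ∅) (A {c}) → LeHyp M σ₁ A (insert c S).ssubsets

theorem evL_leHyp {Θ : ∀ C : Type u, PG C → Set C → Set C → Prop}
    (h : EvM K ℓ κf α fun C M => FpΘ (Θ C M) M) :
    EvL K ℓ κf α fun C M τ => LhΘ (Θ C M) M τ := by
  obtain ⟨r, h⟩ := h
  refine ⟨r, fun θ hθ h₀ hK hunb hst C _ hCm hs hCc => ?_⟩
  obtain ⟨σ, hσ, h1⟩ := h θ hθ h₀ hK hunb hst C hCm hs hCc
  obtain ⟨σ₁, hσ₁, h2⟩ := pg_exists_leHyp.{u, u} h₀ hK hunb hst hCm hs hCc hσ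
  obtain ⟨ν, μ, ρ, h4, -, hl⟩ := exists_lvl h₀ hσ₁
  have h5 : σ₁ < ρ := (((h4.trans hl.νμ).trans (le_opB hunb μ)).trans_lt
    (Order.lt_succ _)).trans_le hl.opB
  refine ⟨ρ, hl.lt, fun τ h3 _ _ => ⟨σ₁, h5.trans_le h3,
    fun ι A S c hS hE hΘ => h2 A S c hS hE ?_⟩⟩
  exact h1 _ (hE.sys.mem (Finset.empty_subset S)) _ hE.memc hE.base hΘ

/-- All the pairs. -/
theorem evM_fpΘ_of_fp (h : EvM K ℓ κf α fun _ M => H27.FP M) :
    EvM K ℓ κf α fun _ M => FpΘ (fun _ _ => True) M :=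
  h.imp fun _ _ ⟨s, hs, h1⟩ => ⟨s, hs, fun D hD N hN hDN _ => fun Q hQ hDQ h2 =>
    h1 D hD N hN Q hQ hDN hDQ h2⟩

/-- Pairs which are generated by finitely many points. -/
theorem evM_fpΘ_fin : EvM K ℓ κf α fun _ M => FpΘ (fun D N =>
    ∃ p : Set _, p.Finite ∧ M.Atomic N (p ∪ D)) M := by
  refine ⟨0, fun θ _ h₀ hK hunb hst C _ hCm hs hCc => ⟨ℓ, h₀.pt.lt, fun D _ N _ _ h => ?_⟩⟩
  obtain ⟨p, hp, hN⟩ := h
  exact fpat_of_atomic hN (hp.lt_aleph0.le.trans hK.1)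

end rows

end Vale.Agent.P307.R2.H480
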